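import Vale.Agent.P235N.Main

/-! P235: `c₁` and the flow-cut gap are bounded on nested clique sums of any number of almost
embeddable graphs, graphs on surfaces and graphs of bounded treewidth along trees with boundedly
many levels. -/

namespace Vale.Agent.Results.P235.AAAAAAANested

open Vale.Agent.P235 Vale.Agent.P235U Vale.Agent.P235L Vale.Agent.P235N

/-- `Bd G C`: `c₁(G) ≤ C` and the multicommodity flow-cut gap of `G` is at most `C`. All graphs are
finite and connected, the constants depend neither on the number of vertices nor on the lengths.
(1) A constant `C(a, g, p, w, k, c, q, j)` for the graphs of round `j`. Round `0`: the
`(a, g, p, w)`-almost embeddable graphs (at most `a` apices, Euler genus at most `g`, at most `p`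
vortices of width at most `w`), and `Surf3`: the spanning subgraphs of sums, along cliques with at
most three vertices, of graphs of Euler genus at most `g` or of treewidth at most `k` (or whose
quasi-4-connected minors are such). Round `j + 1`: the graphs of round `j` with at most `a` more
vertices, and the spanning subgraphs of graphs glued from any number of pieces along cliques of any
size, if the tree of the pieces carries levels `0, …, q`, not decreasing downwards, such that every
level consists of pieces of treewidth at most `k`; or of `Centred` pieces of round `j`; or of
pieces, glued to each other along at most two vertices, which are in `Surf3` or `Centred` of round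
`j`. A piece is `Centred` if all but at most `c` of its children on its level are glued on along at
most one vertex outside `c` centres and the clique to the parent.
(2) A constant `C(a, g, p, w, D)` if the torso of some vertex set `X` is `(a, g, p, w)`-almost
embeddable and all components of `G - X` have `c₁ ≤ D`. -/
theorem result :
    (∀ a g p w k c q j : ℕ, ∃ C : ℝ, ∀ (V : Type) [Finite V] (G : SimpleGraph V), G.Connected →
      Round a g p w k c q j V G → Bd G C) ∧
    ∀ (a g p w : ℕ) (D : ℝ), ∃ C : ℝ, ∀ (V : Type) [Finite V] (G : SimpleGraph V) (X : Set V),
      G.Connected → AlmostEmb a g p w (torso G X) →
      (∀ u ∉ X, DistortionLE (G.induce (compSet G X u)) D) → Bd G C :=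
  ⟨rounds, Vale.Agent.P235A.tors⟩

end Vale.Agent.Results.P235.AAAAAAANested
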