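import Vale.Agent.P235G.E1.All

/-! P235: `c₁` and the flow-cut gap are bounded on sums, along cliques with at most three vertices,
of graphs on surfaces, of graphs of bounded treewidth and (along at most one vertex) of almost
embeddable graphs. -/

namespace Vale.Agent.Results.P235.AAAAAASurfaceSums

open Vale.Agent.P235 Vale.Agent.P235.H134 Vale.Agent.P235.K5 Vale.Agent.P235U Vale.Agent.P235L
open Vale.Agent.P235G.E1

/-- `Bd G C`: `c₁(G) ≤ C` and the multicommodity flow-cut gap of `G` is at most `C`.
`EdgeIso G C`: distortion at most `C`, with any prescribed edge embedded exactly.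
`CliqueSum 3 P H`: the pieces `(B, R)` in `P` are glued on, one after another, along cliques `R`
with at most three vertices. All graphs are finite and connected, the constants depend neither on
the number of vertices nor on the lengths.
(1) `EdgeIso G C(g, k)` and `Bd G C(g, k)` if `G` is drawn on a closed surface, orientable or not,
of Euler genus at most `g`; or if every connected quasi-4-connected minor of `G` is drawn on such a
surface or has treewidth at most `k`; or if `G` spans a sum of any number of pieces of these kinds
and of pieces of treewidth at most `k`.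
(2) `Bd G C` if deleting at most `t` vertices leaves components which span such sums, in which
moreover almost embeddable graphs and arbitrary graphs with `c₁ ≤ D` are used as the first piece
and glued on at one vertex.
(3) Almost embeddable graphs. -/
theorem result :
    (∀ g k : ℕ, ∃ C : ℝ, ∀ (V : Type) [Finite V] (G : SimpleGraph V), G.Connected →
      (Drawn g G ∨ QPiece g k G ∨ ∃ H : SimpleGraph V, G ≤ H ∧
        CliqueSum 3 (fun _ B _ => SPiece g k B ∨ QPiece g k B) H) → EdgeIso G C ∧ Bd G C) ∧
    (∀ (a g p w k t : ℕ) (D : ℝ), ∃ C : ℝ, ∀ (V : Type) [Finite V] (G : SimpleGraph V),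
      G.Connected → (∃ S : Set V, S.ncard ≤ t ∧ ∀ u ∉ S, ∃ H : SimpleGraph (compSet G S u),
        G.induce (compSet G S u) ≤ H ∧ CliqueSum 3 (fun _ B R => SPiece g k B ∨ QPiece g k B ∨
          R.ncard ≤ 1 ∧ (AlmostEmb a g p w B ∨ DistortionLE B D)) H) → Bd G C) ∧
    ∀ a g p w : ℕ, ∃ C : ℝ, ∀ (V : Type) [Finite V] (G : SimpleGraph V), G.Connected →
      AlmostEmb a g p w G → Bd G C :=
  ⟨Vale.Agent.P235G.E1.final.1, Vale.Agent.P235G.E1.final.2.1,
    Vale.Agent.P235G.E1.final.2.2.2.2⟩

end Vale.Agent.Results.P235.AAAAAASurfaceSums
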